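import Vale.Agent.P040.Page.Turn
import Vale.Agent.P040.Drawing

/-!
# Arcs in a half-plane with interleaved ends meet
-/

namespace Vale.Agent.P040

theorem IsArc.symm {S : Set Plane} {p q : Plane} (h : IsArc S p q) : IsArc S q p := by
  obtain ⟨γ, h1, h2, h3, h4, h5⟩ := h
  have hm : Set.MapsTo (fun t : ℝ => 1 - t) (Set.Icc 0 1) (Set.Icc 0 1) := by
    intro t ht
    exact ⟨by linarith [ht.2], by linarith [ht.1]⟩
  refine ⟨fun t => γ (1 - t), h1.comp (by fun_prop) hm, ?_, by simp [h4], by simp [h3], ?_⟩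
  · intro s hs t ht hst
    have := h2 (hm hs) (hm ht) hst
    linarith
  · rw [← h5]
    ext x
    constructor
    · rintro ⟨t, ht, rfl⟩
      exact ⟨1 - t, hm ht, rfl⟩
    · rintro ⟨t, ht, rfl⟩
      exact ⟨1 - t, hm ht, by simp⟩

namespace Page

open Set Complex

theorem half_cross {α β : ℝ → ℂ} (hα : ContinuousOn α (Icc 0 1)) (hβ : ContinuousOn β (Icc 0 1))
    {x1 x2 x3 x4 : ℝ} (h12 : x1 < x2) (h23 : x2 < x3) (h34 : x3 < x4)
    (ha0 : α 0 = x1) (ha1 : α 1 = x3) (hb0 : β 0 = x2) (hb1 : β 1 = x4)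
    (ha : ∀ s ∈ Icc (0 : ℝ) 1, 0 ≤ (α s).im) (hb : ∀ s ∈ Icc (0 : ℝ) 1, 0 ≤ (β s).im) :
    ∃ s ∈ Icc (0 : ℝ) 1, ∃ t ∈ Icc (0 : ℝ) 1, α s = β t := by
  by_contra hne
  push Not at hne
  obtain ⟨θ, hθc, hθ⟩ := exists_angle hα hβ hne
  have hpi := Real.pi_pos
  have h0 : (0 : ℝ) ∈ Icc (0 : ℝ) 1 := by simp
  have h1 : (1 : ℝ) ∈ Icc (0 : ℝ) 1 := by simp
  -- the four corners
  have c10 : Real.sin (θ (1, 0)) = 0 ∧ 0 < Real.cos (θ (1, 0)) := by
    obtain ⟨r, hr, e1, e2⟩ := hθ 1 h1 0 h0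
    rw [ha1, hb0] at e1 e2
    simp only [sub_re, ofReal_re, sub_im, ofReal_im, sub_zero] at e1 e2
    constructor
    · rcases mul_eq_zero.1 e2.symm with h | h
      · exact absurd h hr.ne'
      · exact h
    · by_contra h
      push Not at h
      nlinarith
  have c00 : Real.sin (θ (0, 0)) = 0 ∧ Real.cos (θ (0, 0)) < 0 := by
    obtain ⟨r, hr, e1, e2⟩ := hθ 0 h0 0 h0
    rw [ha0, hb0] at e1 e2
    simp only [sub_re, ofReal_re, sub_im, ofReal_im, sub_zero] at e1 e2
    constructor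
    · rcases mul_eq_zero.1 e2.symm with h | h
      · exact absurd h hr.ne'
      · exact h
    · by_contra h
      push Not at h
      nlinarith [mul_nonneg hr.le h]
  have c11 : Real.sin (θ (1, 1)) = 0 ∧ Real.cos (θ (1, 1)) < 0 := by
    obtain ⟨r, hr, e1, e2⟩ := hθ 1 h1 1 h1
    rw [ha1, hb1] at e1 e2
    simp only [sub_re, ofReal_re, sub_im, ofReal_im, sub_zero] at e1 e2
    constructor
    · rcases mul_eq_zero.1 e2.symm with h | h
      · exact absurd h hr.ne'
      · exact h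
    · by_contra h
      push Not at h
      nlinarith [mul_nonneg hr.le h]
  have c01 : Real.sin (θ (0, 1)) = 0 ∧ Real.cos (θ (0, 1)) < 0 := by
    obtain ⟨r, hr, e1, e2⟩ := hθ 0 h0 1 h1
    rw [ha0, hb1] at e1 e2
    simp only [sub_re, ofReal_re, sub_im, ofReal_im, sub_zero] at e1 e2
    constructor
    · rcases mul_eq_zero.1 e2.symm with h | h
      · exact absurd h hr.ne'
      · exact h
    · by_contra h
      push Not at h
      nlinarith [mul_nonneg hr.le h]
  -- the four sides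
  have s0 : ∀ s ∈ Icc (0 : ℝ) 1, 0 ≤ Real.sin (θ (s, 0)) := by
    intro s hs
    obtain ⟨r, hr, e1, e2⟩ := hθ s hs 0 h0
    rw [hb0] at e2
    simp only [sub_im, ofReal_im, sub_zero] at e2
    have := ha s hs
    rw [e2] at this
    exact (mul_nonneg_iff_of_pos_left hr).1 this
  have s1 : ∀ s ∈ Icc (0 : ℝ) 1, 0 ≤ Real.sin (θ (s, 1)) := by
    intro s hs
    obtain ⟨r, hr, e1, e2⟩ := hθ s hs 1 h1
    rw [hb1] at e2
    simp only [sub_im, ofReal_im, sub_zero] at e2
    have := ha s hs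
    rw [e2] at this
    exact (mul_nonneg_iff_of_pos_left hr).1 this
  have t0 : ∀ t ∈ Icc (0 : ℝ) 1, Real.sin (θ (0, t)) ≤ 0 := by
    intro t ht
    obtain ⟨r, hr, e1, e2⟩ := hθ 0 h0 t ht
    rw [ha0] at e2
    simp only [sub_im, ofReal_im, zero_sub] at e2
    have := hb t ht
    by_contra h
    push Not at h
    nlinarith [mul_pos hr h]
  have t1 : ∀ t ∈ Icc (0 : ℝ) 1, Real.sin (θ (1, t)) ≤ 0 := by
    intro t ht
    obtain ⟨r, hr, e1, e2⟩ := hθ 1 h1 t ht
    rw [ha1] at e2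
    simp only [sub_im, ofReal_im, zero_sub] at e2
    have := hb t ht
    by_contra h
    push Not at h
    nlinarith [mul_pos hr h]
  -- normalise
  set c := θ (1, 0) with hc
  have hcos : Real.cos c = 1 := by
    have := Real.sin_sq_add_cos_sq c
    rw [c10.1] at this
    have h2 : (Real.cos c - 1) * (Real.cos c + 1) = 0 := by linarith [this]
    rcases mul_eq_zero.1 h2 with h | h
    · linarith
    · linarith [c10.2]
  have hsub : ∀ x, Real.sin (x - c) = Real.sin x := by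
    intro x; rw [Real.sin_sub, hcos, c10.1]; ring
  have hcsub : ∀ x, Real.cos (x - c) = Real.cos x := by
    intro x; rw [Real.cos_sub, hcos, c10.1]; ring
  have hu10 : uIcc (1 : ℝ) 0 = Icc 0 1 := by rw [uIcc_of_ge zero_le_one]
  have hu01 : uIcc (0 : ℝ) 1 = Icc 0 1 := by rw [uIcc_of_le zero_le_one]
  have B := half_turn (θ := fun s => θ (s, 0)) (a := 1) (b := 0) (c := c)
    (hθc.comp (by fun_prop)).continuousOn
    (by intro s hs; rw [hu10] at hs; rw [hsub]; exact s0 s hs) le_rfl (by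
      show c ≤ c + Real.pi
      linarith)
  have R := half_turn (θ := fun t => θ (1, t)) (a := 0) (b := 1) (c := c - Real.pi)
    (hθc.comp (by fun_prop)).continuousOn
    (by
      intro s hs; rw [hu01] at hs
      rw [show θ (1, s) - (c - Real.pi) = (θ (1, s) - c) + Real.pi by ring, Real.sin_add_pi, hsub]
      linarith [t1 s hs]) (by show c - Real.pi ≤ c; linarith) (by
      show c ≤ c - Real.pi + Real.pi
      linarith)
  have k11 : θ (1, 1) = c - Real.pi := by
    by_contra hne'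
    have h3 : -Real.pi < θ (1, 1) - c := by
      rcases lt_or_eq_of_le R.1 with h | h
      · linarith
      · exact absurd h.symm hne'
    have h4 : θ (1, 1) - c ≤ 0 := by linarith [R.2]
    rcases lt_or_eq_of_le h4 with h | h
    · have := Real.sin_neg_of_neg_of_neg_pi_lt h h3
      rw [hsub, c11.1] at this
      exact lt_irrefl _ this
    · have h5 := hcsub (θ (1, 1))
      rw [h, Real.cos_zero] at h5
      linarith [c11.2]
  have T := half_turn (θ := fun s => θ (s, 1)) (a := 1) (b := 0) (c := c - 2 * Real.pi)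
    (hθc.comp (by fun_prop)).continuousOn
    (by
      intro s hs; rw [hu10] at hs
      rw [show θ (s, 1) - (c - 2 * Real.pi) = (θ (s, 1) - c) + 2 * Real.pi by ring,
        Real.sin_add_two_pi, hsub]
      exact s1 s hs) (by show c - 2 * Real.pi ≤ θ (1, 1); rw [k11]; linarith) (by
      show θ (1, 1) ≤ c - 2 * Real.pi + Real.pi
      rw [k11]; linarith)
  have k01 : c - Real.pi ≤ θ (0, 1) ∧ θ (0, 1) ≤ c - Real.pi + Real.pi := by
    refine ⟨?_, by linarith [T.2]⟩
    by_contra h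
    push Not at h
    have h3 : 0 ≤ θ (0, 1) - c + 2 * Real.pi := by linarith [T.1]
    rcases lt_or_eq_of_le h3 with h4 | h4
    · have := Real.sin_pos_of_pos_of_lt_pi h4 (by linarith)
      rw [Real.sin_add_two_pi, hsub, c01.1] at this
      exact lt_irrefl _ this
    · have h5 := hcsub (θ (0, 1))
      rw [← Real.cos_add_two_pi, ← h4, Real.cos_zero] at h5
      linarith [c01.2]
  have Lf := half_turn (θ := fun t => θ (0, t)) (a := 1) (b := 0) (c := c - Real.pi)
    (hθc.comp (by fun_prop)).continuousOn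
    (by
      intro s hs; rw [hu10] at hs
      rw [show θ (0, s) - (c - Real.pi) = (θ (0, s) - c) + Real.pi by ring, Real.sin_add_pi, hsub]
      linarith [t0 s hs]) k01.1 k01.2
  have h6 : θ (0, 0) - c = 0 := by linarith [Lf.2, B.1]
  have h7 := hcsub (θ (0, 0))
  rw [h6, Real.cos_zero] at h7
  linarith [c00.2]

/-- Two arcs in the closed upper (or lower) half-plane with interleaved ends on the axis meet. -/
theorem arcs_meet {S T : Set Plane} {p q p' q' : Plane} (hS : IsArc S p q) (hT : IsArc T p' q')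
    (hp : p.2 = 0) (hq : q.2 = 0) (hp' : p'.2 = 0) (hq' : q'.2 = 0)
    (h12 : p.1 < p'.1) (h23 : p'.1 < q.1) (h34 : q.1 < q'.1)
    (hs : (∀ z ∈ S, 0 ≤ z.2) ∧ (∀ z ∈ T, 0 ≤ z.2) ∨ (∀ z ∈ S, z.2 ≤ 0) ∧ (∀ z ∈ T, z.2 ≤ 0)) :
    (S ∩ T).Nonempty := by
  obtain ⟨γ, a1, a2, a3, a4, a5⟩ := hS
  obtain ⟨δ, b1, b2, b3, b4, b5⟩ := hT
  have hmS : ∀ s ∈ Icc (0 : ℝ) 1, γ s ∈ S := fun s hs => a5 ▸ mem_image_of_mem γ hs
  have hmT : ∀ s ∈ Icc (0 : ℝ) 1, δ s ∈ T := fun s hs => b5 ▸ mem_image_of_mem δ hs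
  have key : ∀ ε : ℝ, (ε = 1 ∨ ε = -1) → (∀ z ∈ S, 0 ≤ ε * z.2) → (∀ z ∈ T, 0 ≤ ε * z.2) →
      (S ∩ T).Nonempty := by
    intro ε hε hS' hT'
    have hε0 : ε ≠ 0 := by rcases hε with h | h <;> rw [h] <;> norm_num
    obtain ⟨s, hs, t, ht, hst⟩ := half_cross (α := fun s => ((γ s).1 : ℂ) + (ε * (γ s).2 : ℝ) * I)
      (β := fun s => ((δ s).1 : ℂ) + (ε * (δ s).2 : ℝ) * I)
      (by fun_prop) (by fun_prop) h12 h23 h34
      (by simp [a3, hp]) (by simp [a4, hq]) (by simp [b3, hp']) (by simp [b4, hq'])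
      (by intro s hs; simpa using hS' _ (hmS s hs)) (by intro s hs; simpa using hT' _ (hmT s hs))
    refine ⟨γ s, hmS s hs, ?_⟩
    have e1 : (γ s).1 = (δ t).1 := by simpa using congrArg Complex.re hst
    have e2 : (γ s).2 = (δ t).2 := by
      have : ε * (γ s).2 = ε * (δ t).2 := by simpa using congrArg Complex.im hst
      exact mul_left_cancel₀ hε0 this
    rw [Prod.ext e1 e2]
    exact hmT t ht
  rcases hs with ⟨h1, h2⟩ | ⟨h1, h2⟩
  · exact key 1 (Or.inl rfl) (by simpa using h1) (by simpa using h2)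
  · exact key (-1) (Or.inr rfl) (by intro z hz; linarith [h1 z hz]) (by
      intro z hz; linarith [h2 z hz])

end Page

end Vale.Agent.P040
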