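import Mathlib

/-!
# Continuous angles of the difference of two disjoint paths
-/

namespace Vale.Agent.P040.Page

open Set Complex

/-- Two disjoint paths have a continuous angle of their difference. -/
theorem exists_angle {α β : ℝ → ℂ} (hα : ContinuousOn α (Icc 0 1)) (hβ : ContinuousOn β (Icc 0 1))
    (hne : ∀ s ∈ Icc (0 : ℝ) 1, ∀ t ∈ Icc (0 : ℝ) 1, α s ≠ β t) :
    ∃ θ : ℝ × ℝ → ℝ, Continuous θ ∧ ∀ s ∈ Icc (0 : ℝ) 1, ∀ t ∈ Icc (0 : ℝ) 1,
      ∃ r : ℝ, 0 < r ∧ (α s - β t).re = r * Real.cos (θ (s, t)) ∧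
        (α s - β t).im = r * Real.sin (θ (s, t)) := by
  let c : ℝ → ℝ := fun t => (projIcc (0 : ℝ) 1 zero_le_one t : ℝ)
  have hc : Continuous c := continuous_subtype_val.comp continuous_projIcc
  have hcm : ∀ t, c t ∈ Icc (0 : ℝ) 1 := fun t => (projIcc (0 : ℝ) 1 zero_le_one t).2
  have hceq : ∀ t ∈ Icc (0 : ℝ) 1, c t = t := by
    intro t ht
    simp only [c]
    rw [projIcc_of_mem zero_le_one ht]
  have hα' : Continuous (fun t => α (c t)) := hα.comp_continuous hc hcm
  have hβ' : Continuous (fun t => β (c t)) := hβ.comp_continuous hc hcm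
  let F : ℝ × ℝ → ℂ := fun p => α (c p.1) - β (c p.2)
  have hF : Continuous F := (hα'.comp continuous_fst).sub (hβ'.comp continuous_snd)
  have hF0 : ∀ p, F p ≠ 0 := fun p => sub_ne_zero.2 (hne _ (hcm _) _ (hcm _))
  have hsc : IsSimplyConnected (univ : Set (ℝ × ℝ)) := by
    have := (convex_univ : Convex ℝ (univ : Set (ℝ × ℝ))).contractibleSpace univ_nonempty
    unfold IsSimplyConnected
    infer_instance
  obtain ⟨L, hL, hLe⟩ := exists_continuousOn_eqOn_exp_comp hsc isOpen_univ hF.continuousOn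
    (by rintro ⟨p, -, hp⟩; exact hF0 p hp)
  have hL' : Continuous L := by rwa [← continuousOn_univ]
  refine ⟨fun p => (L p).im, continuous_im.comp hL', ?_⟩
  intro s hs t ht
  refine ⟨Real.exp (L (s, t)).re, Real.exp_pos _, ?_⟩
  have h1 : exp (L (s, t)) = α s - β t := by
    have := hLe (mem_univ (s, t))
    simp only [Function.comp_apply, F, hceq s hs, hceq t ht] at this
    exact this
  rw [← h1, exp_re, exp_im]
  exact ⟨rfl, rfl⟩

/-- A path in a closed half-plane does not turn by more than a half-turn. -/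
theorem half_turn {θ : ℝ → ℝ} {a b c : ℝ} (hθ : ContinuousOn θ (uIcc a b))
    (hs : ∀ s ∈ uIcc a b, 0 ≤ Real.sin (θ s - c)) (ha : c ≤ θ a) (ha' : θ a ≤ c + Real.pi) :
    c ≤ θ b ∧ θ b ≤ c + Real.pi := by
  have hpi := Real.pi_pos
  have hiv := intermediate_value_uIcc hθ
  constructor
  · by_contra h
    push Not at h
    have hm : max (θ b) (c - Real.pi / 2) ∈ uIcc (θ a) (θ b) := by
      rw [uIcc_of_ge (h.le.trans ha)]
      exact ⟨le_max_left _ _, max_le (h.le.trans ha) (by linarith)⟩
    obtain ⟨s, hs1, hs2⟩ := hiv hm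
    have h1 := hs s hs1
    rw [hs2] at h1
    have h2 : Real.sin (max (θ b) (c - Real.pi / 2) - c) < 0 := by
      apply Real.sin_neg_of_neg_of_neg_pi_lt
      · have : max (θ b) (c - Real.pi / 2) < c := max_lt h (by linarith)
        linarith
      · have := le_max_right (θ b) (c - Real.pi / 2)
        linarith
    linarith
  · by_contra h
    push Not at h
    have hm : min (θ b) (c + 3 * Real.pi / 2) ∈ uIcc (θ a) (θ b) := by
      rw [uIcc_of_le (by linarith)]
      refine ⟨le_min (by linarith) (by linarith), min_le_left _ _⟩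
    obtain ⟨s, hs1, hs2⟩ := hiv hm
    have h1 := hs s hs1
    rw [hs2] at h1
    have h2 : Real.sin (min (θ b) (c + 3 * Real.pi / 2) - c) < 0 := by
      rw [← Real.sin_sub_two_pi]
      apply Real.sin_neg_of_neg_of_neg_pi_lt
      · have := min_le_right (θ b) (c + 3 * Real.pi / 2)
        linarith
      · have : c + Real.pi < min (θ b) (c + 3 * Real.pi / 2) := lt_min h (by linarith)
        linarith
    linarith

end Vale.Agent.P040.Page
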